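import Mathlib.CategoryTheory.Triangulated.Pretriangulated

/-!
Towers of distinguished triangles `Y (s+1) ⟶ Y s ⟶ Q s ⟶ (Y (s+1))⟦1⟧` in a triangulated
category, the `E₂`-term of the associated spectral sequence, and two elementary facts:

* if `E₂^s = 0` then filtration `s` implies filtration `s + 1`;
* an element detected by a nonzero class of `E₂^m` is nonzero if the groups `E₂^s`, `s ≤ m - 2`,
  in the stem above vanish.
-/

open CategoryTheory Limits Pretriangulated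

universe v u

set_option linter.unusedSectionVars false

namespace Vale.Agent.P251.H256

variable (D : Type u) [Category.{v} D] [Preadditive D] [HasZeroObject D]
    [HasShift D ℤ] [∀ n : ℤ, (shiftFunctor D n).Additive] [Pretriangulated D]

/-- A tower of distinguished triangles. -/
structure Tower where
  Y : ℕ → D
  Q : ℕ → D
  t : ∀ s, Y (s + 1) ⟶ Y s
  u : ∀ s, Y s ⟶ Q s
  d : ∀ s, Q s ⟶ (Y (s + 1))⟦(1 : ℤ)⟧
  tri : ∀ s, Triangle.mk (t s) (u s) (d s) ∈ distTriang D

variable {D}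

namespace Tower

variable (S : Tower D)

/-- The first differential `Q s ⟶ (Q (s+1))⟦1⟧`. -/
def d₁ (s : ℕ) : S.Q s ⟶ (S.Q (s + 1))⟦(1 : ℤ)⟧ := S.d s ≫ (S.u (s + 1))⟦(1 : ℤ)⟧'

/-- `f : W ⟶ Q s` represents zero in `E₂^s`: it is zero if `s = 0`, and for `s > 0` it is
in the image of the first differential. -/
def IsBoundary (W : D) : ∀ (s : ℕ), (W ⟶ S.Q s) → Prop
  | 0, f => f = 0
  | s + 1, f => ∃ g : W⟦(1 : ℤ)⟧ ⟶ S.Q s, g ≫ S.d₁ s = f⟦(1 : ℤ)⟧'

/-- The `E₂`-term vanishes in filtration `s`, for maps from `W`: cycles are boundaries. -/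
def E₂Zero (W : D) (s : ℕ) : Prop :=
  ∀ f : W ⟶ S.Q s, f ≫ S.d₁ s = 0 → S.IsBoundary W s f

/-- The composite `Y s ⟶ Y 0`. -/
def toZero (S : Tower D) : ∀ s, S.Y s ⟶ S.Y 0
  | 0 => 𝟙 _
  | s + 1 => S.t s ≫ toZero S s

lemma t_u (s : ℕ) : S.t s ≫ S.u s = 0 := comp_distTriang_mor_zero₁₂ _ (S.tri s)

lemma u_d (s : ℕ) : S.u s ≫ S.d s = 0 := comp_distTriang_mor_zero₂₃ _ (S.tri s)

lemma d_t (s : ℕ) : S.d s ≫ (S.t s)⟦(1 : ℤ)⟧' = 0 := comp_distTriang_mor_zero₃₁ _ (S.tri s)

lemma exists_lift {W : D} {s : ℕ} (f : W ⟶ S.Y s) (hf : f ≫ S.u s = 0) :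
    ∃ g : W ⟶ S.Y (s + 1), g ≫ S.t s = f := by
  obtain ⟨g, hg⟩ := Triangle.coyoneda_exact₂ _ (S.tri s) f hf
  exact ⟨g, hg.symm⟩

lemma exists_d {W : D} {s : ℕ} (f : W ⟶ S.Y (s + 1)) (hf : f ≫ S.t s = 0) :
    ∃ g : W⟦(1 : ℤ)⟧ ⟶ S.Q s, g ≫ S.d s = f⟦(1 : ℤ)⟧' := by
  have h : f⟦(1 : ℤ)⟧' ≫ (S.t s)⟦(1 : ℤ)⟧' = 0 := by
    rw [← Functor.map_comp, hf, Functor.map_zero]
  obtain ⟨g, hg⟩ := Triangle.coyoneda_exact₁ _ (S.tri s) (f⟦(1 : ℤ)⟧') h
  exact ⟨g, hg.symm⟩

lemma shift_injective {X Y : D} {f g : X ⟶ Y} (h : f⟦(1 : ℤ)⟧' = g⟦(1 : ℤ)⟧') : f = g :=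
  (shiftFunctor D (1 : ℤ)).map_injective h

/-- The class in `E₁` of a map to the tower is a cycle. -/
lemma cycle {W : D} {s : ℕ} (f : W ⟶ S.Y s) : (f ≫ S.u s) ≫ S.d₁ s = 0 := by
  rw [d₁, Category.assoc, reassoc_of% (S.u_d s)]
  simp

/-- If `E₂^0 = 0` then every map lifts to filtration one. -/
lemma lift_zero {W : D} (h : S.E₂Zero W 0) (f : W ⟶ S.Y 0) :
    ∃ g : W ⟶ S.Y 1, g ≫ S.t 0 = f :=
  S.exists_lift f (h _ (S.cycle f))

/-- If `E₂^{s+1} = 0`, every map `W ⟶ Y (s+1)` may be changed, without changing its image in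
`Y s`, such that it lifts to `Y (s+2)`. -/
lemma lift_succ {W : D} {s : ℕ} (h : S.E₂Zero W (s + 1)) (f : W ⟶ S.Y (s + 1)) :
    ∃ g : W ⟶ S.Y (s + 2), g ≫ S.t (s + 1) ≫ S.t s = f ≫ S.t s := by
  obtain ⟨g, hg⟩ := h _ (S.cycle f)
  -- desuspend the boundary
  obtain ⟨b, hb⟩ := (shiftFunctor D (1 : ℤ)).map_surjective (g ≫ S.d s)
  have h1 : b ≫ S.u (s + 1) = f ≫ S.u (s + 1) := by
    apply shift_injective
    rw [Functor.map_comp, hb, Category.assoc, ← hg, d₁]
  have h2 : b ≫ S.t s = 0 := by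
    apply shift_injective
    rw [Functor.map_comp, hb, Category.assoc, d_t, Limits.comp_zero, Functor.map_zero]
  obtain ⟨k, hk⟩ := S.exists_lift (f - b) (by rw [Preadditive.sub_comp, h1, sub_self])
  refine ⟨k, ?_⟩
  rw [reassoc_of% hk, Preadditive.sub_comp, h2, sub_zero]

/-- If `E₂^s = 0` for all `s ≥ m + 1`, every map `W ⟶ Y (m+1)` is equal in `Y m` to a map coming
from any higher stage. -/
lemma lift_many {W : D} {m : ℕ} (h : ∀ s, m + 1 ≤ s → S.E₂Zero W s) (f : W ⟶ S.Y (m + 1))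
    (k : ℕ) : ∃ g : W ⟶ S.Y (m + 1 + k), g ≫ S.toZero (m + 1 + k) = f ≫ S.toZero (m + 1) := by
  induction k with
  | zero => exact ⟨f, rfl⟩
  | succ k ih =>
    obtain ⟨g, hg⟩ := ih
    have h1 : S.E₂Zero W (m + k + 1) := h _ (by omega)
    have e : m + 1 + k = m + k + 1 := by omega
    obtain ⟨g', hg'⟩ : ∃ g' : W ⟶ S.Y (m + k + 1),
        g' ≫ S.toZero (m + k + 1) = f ≫ S.toZero (m + 1) := by
      rw [← e]; exact ⟨g, hg⟩
    obtain ⟨k', hk'⟩ := S.lift_succ h1 g'
    have h2 : k' ≫ S.toZero (m + k + 2) = f ≫ S.toZero (m + 1) := by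
      rw [← hg', toZero, toZero, ← Category.assoc, ← Category.assoc, Category.assoc k', hk',
        Category.assoc]
    have e' : m + 1 + (k + 1) = m + k + 2 := by omega
    rw [e']
    exact ⟨k', h2⟩

/-- **Vanishing.** If the tower is eventually null and `E₂^s = 0` for all `s > m`, then elements
of filtration `> m` are zero. -/
theorem eq_zero_of_filtration {W : D} {m : ℕ} (h : ∀ s, m < s → S.E₂Zero W s)
    {M : ℕ} (hM : S.toZero M = 0) (f : W ⟶ S.Y (m + 1)) : f ≫ S.toZero (m + 1) = 0 := by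
  have hM' : ∀ k, S.toZero (M + k) = 0 := by
    intro k
    induction k with
    | zero => exact hM
    | succ k ih =>
      change S.t (M + k) ≫ S.toZero (M + k) = 0
      rw [ih, comp_zero]
  obtain ⟨g, hg⟩ := S.lift_many (fun s hs => h s (by omega)) f M
  have h1 := hM' (m + 1)
  rw [Nat.add_comm] at h1
  rw [← hg, h1, comp_zero]

/-- **Detection.** Let `z : W ⟶ Y m` have a nonzero class in `E₂^m`, and let the groups `E₂^s`,
`s + 2 ≤ m`, vanish in the stem above. Then `z` is nonzero in `Y 0`. -/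
theorem ne_zero_of_class_ne_zero {W : D} {m : ℕ} (z : W ⟶ S.Y m)
    (hz : ¬ S.IsBoundary W m (z ≫ S.u m))
    (h : ∀ s, s + 2 ≤ m → S.E₂Zero (W⟦(1 : ℤ)⟧) s) : z ≫ S.toZero m ≠ 0 := by
  -- a map to stage `a` which is nonzero and which, if `a < m`, lifts to the next stage
  have key : ∀ a, a ≤ m → ∀ x : W ⟶ S.Y a, x ≠ 0 → (a = m → ¬ S.IsBoundary W a (x ≫ S.u a)) →
      (a < m → x ≫ S.u a = 0) → x ≫ S.toZero a ≠ 0 := by
    intro a
    induction a with
    | zero =>
      intro _ x hx _ _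
      simpa [toZero] using hx
    | succ a ih =>
      intro ha x hx h1 h2 h0
      refine ih (by omega) (x ≫ S.t a) ?_ (fun h' => by omega)
        (fun _ => by rw [Category.assoc, t_u, comp_zero]) ?_
      · intro h3
        obtain ⟨y, hy⟩ := S.exists_d x h3
        rcases Nat.lt_or_ge (a + 1) m with hlt | hge
        · have h4 : y ≫ S.d₁ a = 0 := by
            rw [d₁, ← Category.assoc, hy, ← Functor.map_comp, h2 hlt, Functor.map_zero]
          have h5 := h a (by omega) y h4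
          have h6 : (y ≫ S.d a) = 0 := by
            cases a with
            | zero =>
              have h7 : y = 0 := h5
              rw [h7, zero_comp]
            | succ a =>
              obtain ⟨g, hg⟩ := h5
              apply shift_injective
              rw [Functor.map_comp, ← hg, d₁, Category.assoc, Category.assoc,
                ← Functor.map_comp, u_d, Functor.map_zero, comp_zero, comp_zero, Functor.map_zero]
          apply hx
          apply shift_injective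
          rw [← hy, h6, Functor.map_zero]
        · obtain rfl : a + 1 = m := by omega
          refine h1 rfl ⟨y, ?_⟩
          rw [d₁, ← Category.assoc, hy, Functor.map_comp]
      · rw [Category.assoc]; exact h0
  refine key m le_rfl z ?_ (fun _ => hz) (fun h' => absurd h' (lt_irrefl _))
  rintro rfl
  apply hz
  rw [zero_comp]
  cases m with
  | zero => rfl
  | succ m => exact ⟨0, by rw [zero_comp, Functor.map_zero]⟩

end Tower

end Vale.Agent.P251.H256
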