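import Mathlib.Tactic.Ring
import Mathlib.Tactic.Linarith
import Mathlib.RingTheory.Coprime.Lemmas
import Mathlib.Algebra.Ring.Int.Parity
import Vale.Agent.P251.H240.Adams
import Vale.Agent.P251.H256.Tower

/-!
Detection in the Adams spectral sequence of a monoid object `E`, and the sparseness argument for
the powers of `β₁` in the homotopy fixed point spectral sequence of `EO_{p-1}`.
-/

set_option linter.unusedSectionVars false

open CategoryTheory MonoidalCategory Limits Pretriangulated MonObj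

universe v u

namespace Vale.Agent.P251.Adams

variable {D : Type u} [Category.{v} D] [Preadditive D] [HasZeroObject D]
    [HasShift D ℤ] [∀ n : ℤ, (shiftFunctor D n).Additive] [Pretriangulated D]
    [MonoidalCategory D] [TensorTriangulated D]

variable {E : D} [MonObj E] {I : D}

/-- `e : W ⟶ I^{⊗ s} ⊗ E` is a boundary for the first differential of the Adams spectral sequence:
for `s = 0` it is zero, for `s > 0` it is in the image of `d₁`. -/
def IsBoundary (δ : E ⟶ I⟦(1 : ℤ)⟧) (W : D) : ∀ (s : ℕ), (W ⟶ Ipow I s ⊗ E) → Prop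
  | 0, e => e = 0
  | s + 1, e => ∃ z : W⟦(1 : ℤ)⟧ ⟶ Ipow I s ⊗ E, z ≫ d1 δ s = e⟦(1 : ℤ)⟧'

/-- The group `E₂^s` of the Adams spectral sequence for maps from `W` to the unit vanishes: every
`d₁`-cycle is a boundary. For `W = 𝟙[t - s]` this is the group `E₂^{s,t}`. -/
def E₂IsZero (δ : E ⟶ I⟦(1 : ℤ)⟧) (W : D) (s : ℕ) : Prop :=
  ∀ e : W ⟶ Ipow I s ⊗ E, e ≫ d1 δ s = 0 → IsBoundary δ W s e

variable {ι : I ⟶ 𝟙_ D} {δ : E ⟶ I⟦(1 : ℤ)⟧} (hI : Triangle.mk ι η[E] δ ∈ distTriang D)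

/-- The Adams tower as a tower of distinguished triangles. -/
def tower : H256.Tower D where
  Y := Ipow I
  Q s := Ipow I s ⊗ E
  t := down ι
  u s := hur E (Ipow I s)
  d := bd δ
  tri := tower_distinguished hI

lemma tower_toZero (s : ℕ) : (tower hI).toZero s = aug ι s := by
  induction s with
  | zero => rfl
  | succ s ih =>
    change down ι s ≫ (tower hI).toZero s = down ι s ≫ aug ι s
    rw [ih]
    rfl

lemma isBoundary_iff (W : D) (s : ℕ) (e : W ⟶ Ipow I s ⊗ E) :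
    (tower hI).IsBoundary W s e ↔ IsBoundary δ W s e := by
  cases s <;> rfl

include hI in
/-- **Detection.** A map `z : W ⟶ I^{⊗ m}` whose class in `E₂^m` is nonzero remains nonzero in the
unit, provided that `E₂^s` vanishes in the stem above for `s ≤ m - 2`. -/
theorem ne_zero_of_detected {W : D} {m : ℕ} (z : W ⟶ Ipow I m)
    (hz : ¬ IsBoundary δ W m (z ≫ hur E (Ipow I m)))
    (h : ∀ s, s + 2 ≤ m → E₂IsZero δ (W⟦(1 : ℤ)⟧) s) : z ≫ aug ι m ≠ 0 := by
  rw [← tower_toZero hI]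
  refine (tower hI).ne_zero_of_class_ne_zero z ?_ ?_
  · intro h'
    exact hz ((isBoundary_iff hI W m _).1 h')
  · intro s hs e he
    exact (isBoundary_iff hI _ s _).2 (h s hs e he)

/-- Vanishing of `E₂` is invariant under isomorphisms of the source. -/
lemma E₂IsZero.of_iso {W W' : D} (f : W ≅ W') {s : ℕ} (h : E₂IsZero δ W s) :
    E₂IsZero δ W' s := by
  intro e he
  have h1 := h (f.hom ≫ e) (by rw [Category.assoc, he, comp_zero])
  cases s with
  | zero =>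
    have h2 : f.hom ≫ e = 0 := h1
    change e = 0
    rw [← cancel_epi f.hom, h2, comp_zero]
  | succ s =>
    obtain ⟨z, hz⟩ := h1
    refine ⟨f.inv⟦(1 : ℤ)⟧' ≫ z, ?_⟩
    rw [Category.assoc, hz, ← Functor.map_comp, Iso.inv_hom_id_assoc]

/-- The bidegrees `(s, t)` in which the `E₂`-term `H^s(F; π_t E_{p-1})` of the homotopy fixed point
spectral sequence of `EO_{p-1}` may be nonzero: `s = 0` and `t` even, or the bidegree of
`α^ε β^j Δ^m` with `ε ∈ {0, 1}`, where `|α| = (1, 2(p-1))`, `|β| = (2, 2p(p-1))` and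
`|Δ| = (0, 2p(p-1)²)`. -/
def EOBidegree (p : ℕ) (s : ℕ) (t : ℤ) : Prop :=
  (s = 0 ∧ Even t) ∨ ∃ ε j : ℕ, ∃ m : ℤ, ε ≤ 1 ∧ s = 2 * j + ε ∧
    t = 2 * ((p : ℤ) - 1) * ε + 2 * p * ((p : ℤ) - 1) * j + 2 * p * ((p : ℤ) - 1) ^ 2 * m

/-- The sparseness argument: no differential can hit `β^k` if `k ≤ (p-1)²`. -/
lemma not_EOBidegree {p k s : ℕ} (hp : 2 ≤ p) (hk : k ≤ (p - 1) ^ 2) (hs : s + 2 ≤ 2 * k) :
    ¬ EOBidegree p s (k * (2 * p * ((p : ℤ) - 1) - 2) + 1 + s) := by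
  rintro (⟨rfl, h⟩ | ⟨ε, j, m, hε, rfl, h⟩)
  · rw [Int.even_iff] at h
    have h1 : ((k : ℤ) * (2 * p * ((p : ℤ) - 1) - 2) + 1 + (0 : ℕ)) =
      1 + 2 * (k * (p * ((p : ℤ) - 1) - 1)) := by push_cast; ring
    rw [h1] at h
    omega
  · obtain ⟨q, rfl⟩ : ∃ q : ℕ, p = q + 1 := ⟨p - 1, by omega⟩
    have hε1 : ε = 1 := by
      by_contra h0
      have h0' : ε = 0 := by omega
      subst h0'
      push_cast at h
      have h1 : (1 : ℤ) = 2 * (-(k * ((q + 1) * q - 1)) - j + (q + 1) * q * j +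
        (q + 1) * q ^ 2 * m) := by linarith
      omega
    subst hε1
    push_cast at h
    simp only [Nat.add_sub_cancel] at hk
    -- `e = k - j` satisfies `e ≡ 1 mod q²`
    have h2 : (q : ℤ) ^ 2 ∣ ((k : ℤ) - j - 1) * (q - 1) := by
      refine ⟨(q + 1) * m - ((k : ℤ) - j), ?_⟩
      linarith
    have h3 : IsCoprime ((q : ℤ) ^ 2) ((q : ℤ) - 1) := by
      have : IsCoprime (q : ℤ) ((q : ℤ) - 1) := ⟨1, -1, by ring⟩
      exact this.pow_left
    have h4 : (q : ℤ) ^ 2 ∣ (k : ℤ) - j - 1 := h3.dvd_of_dvd_mul_right h2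
    have h5 : (0 : ℤ) < (k : ℤ) - j - 1 := by omega
    have h6 := Int.le_of_dvd h5 h4
    have h7 : (k : ℤ) ≤ (q : ℤ) ^ 2 := by exact_mod_cast hk
    omega

include hI in
/-- **Survival of `β₁^k`.** Suppose that `E₂^{s,t} = 0` outside the bidegrees of the homotopy fixed
point spectral sequence of `EO_{p-1}`, and that `z : 𝟙[k (2p(p-1)-2)] ⟶ I^{⊗ 2k}` has a nonzero
class in `E₂^{2k}`, where `k ≤ (p-1)²`. Then the image of `z` in the unit is nonzero. -/
theorem ne_zero_of_detected_EO {p k : ℕ} (hp : 2 ≤ p) (hk : k ≤ (p - 1) ^ 2)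
    (hV : ∀ (s : ℕ) (i : ℤ), ¬ EOBidegree p s (i + s) → E₂IsZero δ ((𝟙_ D)⟦i⟧) s)
    {W : D} (f : W ≅ (𝟙_ D)⟦(k : ℤ) * (2 * p * ((p : ℤ) - 1) - 2)⟧) (z : W ⟶ Ipow I (2 * k))
    (hz : ¬ IsBoundary δ W (2 * k) (z ≫ hur E (Ipow I (2 * k)))) : z ≫ aug ι (2 * k) ≠ 0 := by
  refine ne_zero_of_detected hI z hz fun s hs => ?_
  have h1 := hV s _ (not_EOBidegree (s := s) hp hk hs)
  exact h1.of_iso (((shiftFunctorAdd D _ (1 : ℤ)).app (𝟙_ D)) ≪≫
    ((shiftFunctor D (1 : ℤ)).mapIso f).symm)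

end Vale.Agent.P251.Adams
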