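import Vale.Agent.P251.Q2.Defs

/-!
# The `E₂`-term of the Adams spectral sequence of a monoid object
-/

open CategoryTheory MonoidalCategory Limits Pretriangulated MonObj

universe v u

namespace Vale.Agent.P251

section

variable {D : Type u} [Category.{v} D] [Preadditive D] [HasZeroObject D]
    [HasShift D ℤ] [∀ n : ℤ, (shiftFunctor D n).Additive] [Pretriangulated D]
    [MonoidalCategory D] [TensorTriangulated D]

/-- `e : W ⟶ I^{⊗ s} ⊗ E` represents zero in the `E₂`-term of the `E`-based Adams spectral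
sequence: it is zero if `s = 0`, and it is in the image of the first differential if `s > 0`. -/
def IsAdamsBoundary {E : D} [MonObj E] {I : D} (δ : E ⟶ I⟦(1 : ℤ)⟧) {W : D} :
    ∀ s : ℕ, (W ⟶ tensorPower I s ⊗ E) → Prop
  | 0, e => e = 0
  | s + 1, e => ∃ b : W⟦(1 : ℤ)⟧ ⟶ tensorPower I s ⊗ E, b ≫ adamsD1 δ s = e⟦(1 : ℤ)⟧'

/-- The group `E₂^{s,t}` of the `E`-based Adams spectral sequence of the unit object is zero:
every cycle in `π_{t-s}(I^{⊗ s} ⊗ E)` is a boundary. -/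
def AdamsE₂IsZero {E : D} [MonObj E] {I : D} (δ : E ⟶ I⟦(1 : ℤ)⟧) (s : ℕ) (t : ℤ) : Prop :=
  ∀ e : (𝟙_ D)⟦t - s⟧ ⟶ tensorPower I s ⊗ E, e ≫ adamsD1 δ s = 0 → IsAdamsBoundary δ s e

/-- The map `z : W ⟶ I^{⊗ s}` represents zero in the `E₂`-term, in filtration `s`. -/
def HasZeroClass {E : D} [MonObj E] {I : D} (δ : E ⟶ I⟦(1 : ℤ)⟧) {W : D} (s : ℕ)
    (z : W ⟶ tensorPower I s) : Prop :=
  IsAdamsBoundary δ s (z ≫ (ρ_ (tensorPower I s)).inv ≫ (tensorPower I s ◁ η[E]))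

end

/-- The bidegrees `(s, t)` in which `H^s(G; π_t E_{p-1})`, the `E₂`-term of the homotopy fixed
point spectral sequence of `EO_{p-1}`, may be nonzero: `s = 0` and `t` even, or the bidegree of
`α^ε β^j Δ^m` with `ε ∈ {0, 1}`, where `α`, `β`, `Δ` have the bidegrees `(1, 2(p-1))`,
`(2, 2p(p-1))`, `(0, 2p(p-1)²)`. -/
def EOBidegree (p : ℕ) (s : ℕ) (t : ℤ) : Prop :=
  (s = 0 ∧ Even t) ∨ ∃ ε j : ℕ, ∃ m : ℤ, ε ≤ 1 ∧ s = 2 * j + ε ∧
    t = 2 * ((p : ℤ) - 1) * ε + 2 * p * ((p : ℤ) - 1) * j + 2 * p * ((p : ℤ) - 1) ^ 2 * m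

end Vale.Agent.P251
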