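import Mathlib.Tactic.Ring
import Mathlib.Tactic.Linarith
import Mathlib.RingTheory.Coprime.Lemmas
import Mathlib.Algebra.Ring.Int.Parity
import Vale.Agent.P251.Q2.Main
import Vale.Agent.P251.H256.PrimDefs
import Vale.Agent.P251.H256.Tower

/-!
# The powers of `β₁` survive in `EO_{p-1}`; the weak splitting fails (primitive form)
-/

set_option linter.unusedSectionVars false
set_option linter.unusedVariables false

open CategoryTheory MonoidalCategory Limits Pretriangulated MonObj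

universe v u v' u' v'' u''

namespace Vale.Agent.P251

/-- The sparseness argument: no differential can hit `β^k` if `k ≤ (p-1)²`. -/
lemma not_EOBidegree {p k s : ℕ} (hp : 2 ≤ p) (hk : k ≤ (p - 1) ^ 2) (hs : s + 2 ≤ 2 * k) :
    ¬ EOBidegree p s (k * (2 * p * ((p : ℤ) - 1) - 2) + 1 + s) := by
  rintro (⟨rfl, h⟩ | ⟨ε, j, m, hε, rfl, h⟩)
  · rw [Int.even_iff] at h
    have h1 : ((k : ℤ) * (2 * p * ((p : ℤ) - 1) - 2) + 1 + (0 : ℕ)) =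
      1 + 2 * (k * (p * ((p : ℤ) - 1) - 1)) := by push_cast; ring
    rw [h1] at h
    omega
  · obtain ⟨q, rfl⟩ : ∃ q : ℕ, p = q + 1 := ⟨p - 1, by omega⟩
    have hε1 : ε = 1 := by
      by_contra h0
      have h0' : ε = 0 := by omega
      subst h0'
      push_cast at h
      have h1 : (1 : ℤ) = 2 * (-(k * ((q + 1) * q - 1)) - j + (q + 1) * q * j +
        (q + 1) * q ^ 2 * m) := by linarith
      omega
    subst hε1
    push_cast at h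
    simp only [Nat.add_sub_cancel] at hk
    -- `e = k - j` satisfies `e ≡ 1 mod q²`
    have h2 : (q : ℤ) ^ 2 ∣ ((k : ℤ) - j - 1) * (q - 1) := by
      refine ⟨(q + 1) * m - ((k : ℤ) - j), ?_⟩
      linarith
    have h3 : IsCoprime ((q : ℤ) ^ 2) ((q : ℤ) - 1) := by
      have : IsCoprime (q : ℤ) ((q : ℤ) - 1) := ⟨1, -1, by ring⟩
      exact this.pow_left
    have h4 : (q : ℤ) ^ 2 ∣ (k : ℤ) - j - 1 := h3.dvd_of_dvd_mul_right h2
    have h5 : (0 : ℤ) < (k : ℤ) - j - 1 := by omega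
    have h6 := Int.le_of_dvd h5 h4
    have h7 : (k : ℤ) ≤ (q : ℤ) ^ 2 := by exact_mod_cast hk
    omega

section

variable {D : Type u} [Category.{v} D] [Preadditive D] [HasZeroObject D]
    [HasShift D ℤ] [∀ n : ℤ, (shiftFunctor D n).Additive] [Pretriangulated D]
    [MonoidalCategory D] [TensorTriangulated D]

variable {E : D} [MonObj E] {I : D} {ι : I ⟶ 𝟙_ D} {δ : E ⟶ I⟦(1 : ℤ)⟧}
    (hI : Triangle.mk ι η[E] δ ∈ distTriang D)

/-- The Adams tower as a tower of distinguished triangles. -/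
def adamsTower : H256.Tower D where
  Y := tensorPower I
  Q s := tensorPower I s ⊗ E
  t := AdamsT.down ι
  u s := AdamsT.hur E (tensorPower I s)
  d := AdamsT.bd δ
  tri := AdamsT.tower_distinguished hI

lemma adamsTower_toZero (s : ℕ) : (adamsTower hI).toZero s = towerMap ι s := by
  induction s with
  | zero => rfl
  | succ s ih =>
    rw [AdamsT.towerMap_succ]
    change AdamsT.down ι s ≫ (adamsTower hI).toZero s = AdamsT.down ι s ≫ towerMap ι s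
    rw [ih]
    rfl

lemma isAdamsBoundary_iff (W : D) (s : ℕ) (e : W ⟶ tensorPower I s ⊗ E) :
    (adamsTower hI).IsBoundary W s e ↔ IsAdamsBoundary δ s e := by
  cases s with
  | zero => rfl
  | succ s =>
    change (∃ g : W⟦(1 : ℤ)⟧ ⟶ tensorPower I s ⊗ E, g ≫ (adamsTower hI).d₁ s = e⟦(1 : ℤ)⟧') ↔
      ∃ b : W⟦(1 : ℤ)⟧ ⟶ tensorPower I s ⊗ E, b ≫ adamsD1 δ s = e⟦(1 : ℤ)⟧'
    have : (adamsTower hI).d₁ s = adamsD1 δ s := (AdamsT.adamsD1_eq s).symm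
    rw [this]
    rfl

lemma isAdamsBoundary_of_iso {W W' : D} (f : W ≅ W') (s : ℕ) (e : W' ⟶ tensorPower I s ⊗ E)
    (h : IsAdamsBoundary δ s (f.hom ≫ e)) : IsAdamsBoundary δ s e := by
  cases s with
  | zero =>
    have h2 : f.hom ≫ e = 0 := h
    change e = 0
    rw [← cancel_epi f.hom, h2, comp_zero]
  | succ s =>
    obtain ⟨z, hz⟩ := h
    refine ⟨f.inv⟦(1 : ℤ)⟧' ≫ z, ?_⟩
    rw [Category.assoc, hz, ← Functor.map_comp, Iso.inv_hom_id_assoc]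

include hI in
/-- **Detection.** A map `z : W ⟶ I^{⊗ m}` whose class in `E₂^m` is nonzero remains nonzero in the
unit, provided that `E₂^s` vanishes in the stem above for `s ≤ m - 2`. -/
theorem ne_zero_of_detected {W : D} {m : ℕ} {a : ℤ} (f : W ≅ (𝟙_ D)⟦a⟧)
    (z : W ⟶ tensorPower I m) (hz : ¬ HasZeroClass δ m z)
    (h : ∀ s : ℕ, s + 2 ≤ m → AdamsE₂IsZero δ s (a + 1 + s)) : z ≫ towerMap ι m ≠ 0 := by
  rw [← adamsTower_toZero hI]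
  refine (adamsTower hI).ne_zero_of_class_ne_zero z ?_ ?_
  · intro h'
    exact hz ((isAdamsBoundary_iff hI W m _).1 h')
  · intro s hs (e : W⟦(1 : ℤ)⟧ ⟶ tensorPower I s ⊗ E) he
    refine (isAdamsBoundary_iff hI _ s e).2 ?_
    have h1 : (adamsTower hI).d₁ s = adamsD1 δ s := (AdamsT.adamsD1_eq s).symm
    have e1 : (𝟙_ D)⟦a + 1 + s - s⟧ ≅ W⟦(1 : ℤ)⟧ :=
      eqToIso (by rw [add_sub_cancel_right]) ≪≫ ((shiftFunctorAdd D a (1 : ℤ)).app (𝟙_ D)) ≪≫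
        ((shiftFunctor D (1 : ℤ)).mapIso f).symm
    refine isAdamsBoundary_of_iso e1 s e (h s hs _ ?_)
    have h2 : e ≫ adamsD1 δ s = 0 := by rw [← h1]; exact he
    rw [Category.assoc, h2, comp_zero]

/-- The iterated shift is a shift. -/
lemma nonempty_iterShift (S : D) (m : ℤ) (k : ℕ) : Nonempty (iterShift S m k ≅ S⟦(k : ℤ) * m⟧) := by
  induction k with
  | zero => exact ⟨((shiftFunctorZero' D _ (by simp)).app S).symm⟩
  | succ k ih =>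
    obtain ⟨e⟩ := ih
    exact ⟨(shiftFunctor D m).mapIso e ≪≫
      ((shiftFunctorAdd' D ((k : ℤ) * m) m _ (by push_cast; ring)).app S).symm⟩

end

variable {T : Type u} [Category.{v} T] [Preadditive T] [HasZeroObject T]
    [HasShift T ℤ] [∀ n : ℤ, (shiftFunctor T n).Additive] [Pretriangulated T]
    [MonoidalCategory T] [TensorTriangulated T]
variable {D : Type u'} [Category.{v'} D] [Preadditive D] [HasZeroObject D]
    [HasShift D ℤ] [∀ n : ℤ, (shiftFunctor D n).Additive] [Pretriangulated D]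
    [MonoidalCategory D] [TensorTriangulated D]
variable {D' : Type u''} [Category.{v''} D'] [Preadditive D'] [HasZeroObject D']
    [HasShift D' ℤ] [∀ n : ℤ, (shiftFunctor D' n).Additive] [Pretriangulated D']
    [MonoidalCategory D'] [TensorTriangulated D']

/-- **Survival of `β₁^k` in `EO_{p-1}`**, `k ≤ (p-1)²`. -/
theorem map_power_ne_zero {p k : ℕ} (hp : 2 ≤ p) (hk : k ≤ (p - 1) ^ 2)
    (L' : T ⥤ D') [L'.CommShift ℤ] [L'.Monoidal]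
    {E' I' : D'} [MonObj E'] {ι' : I' ⟶ 𝟙_ D'} {δ' : E' ⟶ I'⟦(1 : ℤ)⟧}
    (hI' : Triangle.mk ι' η[E'] δ' ∈ distTriang D')
    (hV : ∀ (s : ℕ) (t : ℤ), ¬ EOBidegree p s t → AdamsE₂IsZero δ' s t)
    {m : ℤ} (hm : m = 2 * (p : ℤ) ^ 2 - 2 * p - 2)
    (β : (𝟙_ T)⟦m⟧ ⟶ 𝟙_ T)
    (hβ : ∃ z : L'.obj (iterShift (𝟙_ T) m k) ⟶ tensorPower I' (2 * k),
      z ≫ towerMap ι' (2 * k) = L'.map (power β k) ≫ Functor.OplaxMonoidal.η L' ∧
        ¬ HasZeroClass δ' (2 * k) z) : L'.map (power β k) ≠ 0 := by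
  obtain ⟨z, hz, hz'⟩ := hβ
  obtain ⟨e₀⟩ := nonempty_iterShift (𝟙_ T) m k
  let e : L'.obj (iterShift (𝟙_ T) m k) ≅ (𝟙_ D')⟦(k : ℤ) * m⟧ :=
    L'.mapIso e₀ ≪≫ (L'.commShiftIso ((k : ℤ) * m)).app (𝟙_ T) ≪≫
      (shiftFunctor D' _).mapIso (Functor.Monoidal.εIso L').symm
  have h1 := ne_zero_of_detected hI' e z hz' (fun s hs => hV s _ (by
    have h2 := not_EOBidegree (s := s) hp hk hs
    have h3 : 2 * (p : ℤ) * ((p : ℤ) - 1) - 2 = m := by rw [hm]; ring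
    rwa [h3] at h2))
  intro h0
  apply h1
  rw [hz, h0, zero_comp]

/-- If `p = 0` on `K`, then `M`-acyclic objects are `K`-acyclic, `M` the cofibre of `p`. -/
lemma isZero_of_moore' [SymmetricCategory T] {K : T} {c : ℤ} (hc : c • 𝟙 K = 0)
    {M : T} {a : 𝟙_ T ⟶ M} {b : M ⟶ (𝟙_ T)⟦(1 : ℤ)⟧}
    (hM : Triangle.mk (c • 𝟙 (𝟙_ T)) a b ∈ distTriang T)
    {C : T} (h1 : IsZero (M ⊗ C)) : IsZero (K ⊗ C) := by
  have h2 : IsZero (C ⊗ M) := h1.of_iso (β_ C M)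
  have h3 : IsIso (C ◁ (c • 𝟙 (𝟙_ T))) :=
    (Triangle.isZero₃_iff_isIso₁ _ (TensorTriangulated.distinguished C _ hM)).1 h2
  have h4 : C ◁ (c • 𝟙 (𝟙_ T)) = c • 𝟙 (C ⊗ 𝟙_ T) := by
    have : C ◁ (c • 𝟙 (𝟙_ T)) = c • (C ◁ (𝟙 (𝟙_ T))) := (tensorLeft C).map_zsmul
    rw [this, MonoidalCategory.whiskerLeft_id]
  rw [h4] at h3
  have h6 : IsZero (K ⊗ (C ⊗ 𝟙_ T)) := by
    have h7 : IsIso (K ◁ (c • 𝟙 (C ⊗ 𝟙_ T))) := inferInstance
    have h8 : K ◁ (c • 𝟙 (C ⊗ 𝟙_ T)) = 0 := by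
      have e3 : K ◁ (c • 𝟙 (C ⊗ 𝟙_ T)) = c • (K ◁ (𝟙 (C ⊗ 𝟙_ T))) := (tensorLeft K).map_zsmul
      have e4 : (c • 𝟙 K) ▷ (C ⊗ 𝟙_ T) = c • (𝟙 K ▷ (C ⊗ 𝟙_ T)) :=
        (tensorRight (C ⊗ 𝟙_ T)).map_zsmul
      rw [e3, MonoidalCategory.whiskerLeft_id, ← id_whiskerRight, ← e4, hc]
      simp
    rw [h8] at h7
    rw [IsZero.iff_id_eq_zero, ← cancel_epi (0 : K ⊗ (C ⊗ 𝟙_ T) ⟶ K ⊗ (C ⊗ 𝟙_ T))]
    simp
  exact h6.of_iso (whiskerLeftIso K (ρ_ C).symm)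

/-- A functor killing the `K`-acyclic objects inverts the `K`-equivalences. -/
lemma isIso_map_of_acyclic (L' : T ⥤ D') [L'.CommShift ℤ] [L'.IsTriangulated] {A B : T}
    (f : A ⟶ B)
    (h : ∀ (C : T) (g : C ⟶ A) (k : B ⟶ C⟦(1 : ℤ)⟧), Triangle.mk g f k ∈ distTriang T →
      IsZero (L'.obj C)) : IsIso (L'.map f) := by
  obtain ⟨C, g, k, hC⟩ := distinguished_cocone_triangle₁ f
  exact (Triangle.isZero₁_iff_isIso₂ _ (L'.map_distinguished _ hC)).1 (h C g k hC)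

/-- Torsion classes of even degree are nilpotent in the `K(n)`-local sphere, with an explicit
exponent. -/
theorem power_eq_zero_local [SymmetricCategory T] [SymmetricCategory D]
    {p N k : ℕ} (hk : N < 2 * k)
    (L : T ⥤ D) [L.Additive] [L.CommShift ℤ] [L.IsTriangulated] [L.Monoidal]
    (R : D ⥤ T) (adj : L ⊣ R) [R.Full] [R.Faithful]
    {E I : D} [MonObj E] {ι : I ⟶ 𝟙_ D} {δ : E ⟶ I⟦(1 : ℤ)⟧}
    (hI : Triangle.mk ι η[E] δ ∈ distTriang D)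
    (htf : ∀ (j : ℤ) (g : (𝟙_ D)⟦j⟧ ⟶ E), p • g = 0 → g = 0)
    (hodd : ∀ (j : ℤ), Odd j → ∀ g : (𝟙_ D)⟦j⟧ ⟶ E ⊗ E, g = 0)
    (hE₂ : ∀ (s : ℕ) (t : ℤ), N < s → AdamsE₂IsZero δ s t)
    (hconv : ∀ j : ℤ, ∃ N : ℕ, ∀ x : (𝟙_ D)⟦j⟧ ⟶ tensorPower I N, x ≫ towerMap ι N = 0)
    {m : ℤ} (hm : Even m) (β : (𝟙_ T)⟦m⟧ ⟶ 𝟙_ T) (hβ : p • β = 0)
    {Z : T} (z : 𝟙_ T ⟶ Z) (hz : ∀ W : T, IsZero (L.obj W) → ∀ g : W ⟶ Z, g = 0) :
    power β k ≫ z = 0 := by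
  have hR : R.Additive := adj.right_adjoint_additive
  let ε : 𝟙_ D ≅ L.obj (𝟙_ T) := Functor.Monoidal.εIso L
  let x : (𝟙_ D)⟦m⟧ ⟶ 𝟙_ D :=
    ε.hom⟦m⟧' ≫ (L.commShiftIso m).inv.app (𝟙_ T) ≫ L.map β ≫ ε.inv
  have hx : p • x = 0 := by
    have h1 : p • L.map β = 0 := by
      rw [← L.map_nsmul, hβ, L.map_zero]
    simp only [x]
    rw [← Preadditive.comp_nsmul, ← Preadditive.comp_nsmul, ← Preadditive.nsmul_comp, h1]
    simp
  have hx2 : AdamsFiltrationGE E 2 x :=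
    filtration_two E (htf m) (fun g => hodd (m + 1) hm.add_one g) x hx
  have hβ2 : AdamsFiltrationGE E 2 (L.map β) := by
    have e : L.map β = ((L.commShiftIso m).hom.app (𝟙_ T) ≫ ε.inv⟦m⟧') ≫ x ≫ ε.hom := by
      simp only [x, Category.assoc]
      rw [← Functor.map_comp_assoc, Iso.inv_hom_id, CategoryTheory.Functor.map_id,
        Category.id_comp, Iso.hom_inv_id_app_assoc, Category.comp_id]
    rw [e]
    exact (hx2.postcomp _).precomp _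
  have h2 := filtration_map_power L E β hβ2 k
  have h3 : L.map (power β k) = 0 := by
    obtain ⟨j, ⟨e₀⟩⟩ := nonempty_iterShift_iso (𝟙_ T) m k
    let e : (𝟙_ D)⟦j⟧ ≅ L.obj (iterShift (𝟙_ T) m k) :=
      (shiftFunctor D j).mapIso ε ≪≫ (L.commShiftIso j).symm.app (𝟙_ T) ≪≫ L.mapIso e₀.symm
    have h4 : e.hom ≫ L.map (power β k) ≫ ε.inv = 0 := by
      have h5 : AdamsFiltrationGE E (N + 1) (e.hom ≫ L.map (power β k) ≫ ε.inv) :=
        AdamsFiltrationGE.mono (by omega) ((h2.postcomp _).precomp _)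
      refine AdamsT.eq_zero_of_nullComp hI _ (N + 1) (by omega) (fun s hs e he => ?_) (hconv j) _
        h5.nullComp
      have h6 := hE₂ (s + 1) (j + (s + 1 : ℕ)) (by omega)
      have e1 : (𝟙_ D)⟦j + (s + 1 : ℕ) - (s + 1 : ℕ)⟧ ≅ (𝟙_ D)⟦j⟧ :=
        eqToIso (by rw [add_sub_cancel_right])
      exact isAdamsBoundary_of_iso e1 (s + 1) e
        (h6 (e1.hom ≫ e) (by rw [Category.assoc, he, comp_zero]))
    rw [← cancel_epi e.hom, ← cancel_mono ε.inv, Category.assoc, h4]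
    simp
  exact comp_eq_zero_of_map_eq_zero L R adj hz _ h3 _

/-- **Failure of the weak chromatic splitting**, with inputs at the level of `E₂`-terms. -/
theorem no_retraction_primitive [SymmetricCategory T] [SymmetricCategory D]
    {p n : ℕ} (hpn : p ≤ n) (hsq : n ^ 2 < 2 * (p - 1) ^ 2) (hp : 2 ≤ p)
    (K : ℕ → T) (hK : ∀ m, 1 ≤ m → (p : ℤ) • 𝟙 (K m) = 0)
    {M : T} {a : 𝟙_ T ⟶ M} {b : M ⟶ (𝟙_ T)⟦(1 : ℤ)⟧}
    (hM : Triangle.mk ((p : ℤ) • 𝟙 (𝟙_ T)) a b ∈ distTriang T)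
    {Sp : T} (c : 𝟙_ T ⟶ Sp) (hc : IsBousfieldLocalization (fun _ : Unit => M) c)
    {Z : T} (z : Sp ⟶ Z) (hz : IsBousfieldLocalization (fun _ : Unit => K n) z)
    {X Y : T} (l : Sp ⟶ X) (hl : IsBousfieldLocalization (upTo K (n - 1)) l)
    (y : Z ⟶ Y)
    (i : X ⟶ Y) (hi : l ≫ i = z ≫ y)
    (L : T ⥤ D) [L.Additive] [L.CommShift ℤ] [L.IsTriangulated] [L.Monoidal]
    (R : D ⥤ T) (adj : L ⊣ R) [R.Full] [R.Faithful]
    (hker : ∀ W : T, IsZero (L.obj W) ↔ IsZero (K n ⊗ W))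
    {E I : D} [MonObj E] {ι : I ⟶ 𝟙_ D} {δ : E ⟶ I⟦(1 : ℤ)⟧}
    (hI : Triangle.mk ι η[E] δ ∈ distTriang D)
    (htf : ∀ (j : ℤ) (g : (𝟙_ D)⟦j⟧ ⟶ E), p • g = 0 → g = 0)
    (hodd : ∀ (j : ℤ), Odd j → ∀ g : (𝟙_ D)⟦j⟧ ⟶ E ⊗ E, g = 0)
    (hE₂ : ∀ (s : ℕ) (t : ℤ), n ^ 2 < s → AdamsE₂IsZero δ s t)
    (hconv : ∀ j : ℤ, ∃ N : ℕ, ∀ x : (𝟙_ D)⟦j⟧ ⟶ tensorPower I N, x ≫ towerMap ι N = 0)
    {m : ℤ} (hm : m = 2 * (p : ℤ) ^ 2 - 2 * p - 2)
    (β : (𝟙_ T)⟦m⟧ ⟶ 𝟙_ T) (hβ : p • β = 0)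
    (L' : T ⥤ D') [L'.CommShift ℤ] [L'.IsTriangulated] [L'.Monoidal]
    (hker' : ∀ W : T, IsZero (K (p - 1) ⊗ W) → IsZero (L'.obj W))
    {E' I' : D'} [MonObj E'] {ι' : I' ⟶ 𝟙_ D'} {δ' : E' ⟶ I'⟦(1 : ℤ)⟧}
    (hI' : Triangle.mk ι' η[E'] δ' ∈ distTriang D')
    (hV : ∀ (s : ℕ) (t : ℤ), ¬ EOBidegree p s t → AdamsE₂IsZero δ' s t)
    (hβ' : ∃ z : L'.obj (iterShift (𝟙_ T) m ((p - 1) ^ 2)) ⟶ tensorPower I' (2 * (p - 1) ^ 2),
      z ≫ towerMap ι' (2 * (p - 1) ^ 2) =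
          L'.map (power β ((p - 1) ^ 2)) ≫ Functor.OplaxMonoidal.η L' ∧
        ¬ HasZeroClass δ' (2 * (p - 1) ^ 2) z) :
    ¬ ∃ r : Y ⟶ X, i ≫ r = 𝟙 X := by
  rintro ⟨r, hr⟩
  -- `β^k` vanishes in `π_* L_{K(n)} S_p`
  have h1 : power β ((p - 1) ^ 2) ≫ (c ≫ z) = 0 :=
    power_eq_zero_local hsq L R adj hI htf hodd hE₂ hconv
      (by rw [hm]; exact Int.even_iff.2 (by omega)) β hβ _
      (fun W hW g => hz.2 W (fun _ => (hker W).1 hW) g)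
  -- hence in `π_* L_{n-1} S_p`
  have h2 : power β ((p - 1) ^ 2) ≫ c ≫ l = 0 := by
    calc power β ((p - 1) ^ 2) ≫ c ≫ l
        = (power β ((p - 1) ^ 2) ≫ c) ≫ l ≫ (i ≫ r) := by rw [hr]; simp
      _ = (power β ((p - 1) ^ 2) ≫ c) ≫ (l ≫ i) ≫ r := by simp
      _ = (power β ((p - 1) ^ 2) ≫ (c ≫ z)) ≫ y ≫ r := by rw [hi]; simp
      _ = 0 := by rw [h1, zero_comp]
  -- hence in the category of `EO_{p-1}`-modules
  have hc' : IsIso (L'.map c) := isIso_map_of_acyclic L' c (fun C g k hC => hker' C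
    (isZero_of_moore' (hK (p - 1) (by omega)) hM
      ((Triangle.isZero₁_iff_isIso₂ _ (TensorTriangulated.distinguished M _ hC)).2 (hc.1 ()))))
  have hl' : IsIso (L'.map l) := isIso_map_of_acyclic L' l (fun C g k hC => hker' C
    ((Triangle.isZero₁_iff_isIso₂ _ (TensorTriangulated.distinguished (K (p - 1)) _ hC)).2
      (hl.1 ⟨p - 1, by omega⟩)))
  have h3 := map_power_ne_zero hp le_rfl L' hI' hV hm β hβ'
  apply h3
  have h4 := congrArg L'.map h2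
  rw [L'.map_comp, L'.map_comp, L'.map_zero] at h4
  rw [← cancel_mono (L'.map c ≫ L'.map l), h4, zero_comp]

end Vale.Agent.P251
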